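import Mathlib

/-! P174 (Howie's conjecture): closure under local embeddability. -/
namespace P174

universe u

open Monoid

/-- exponent sums: kills `G`, sends `x_j` to `e_j` -/
noncomputable def expHom (G : Type u) [Group G] (n : ℕ) :
    Coprod G (FreeGroup (Fin n)) →* Multiplicative (Fin n → ℤ) :=
  Coprod.lift 1 (FreeGroup.lift fun j => Multiplicative.ofAdd (Pi.single j (1 : ℤ)))

/-- the exponent-sum matrix of a finite system -/
noncomputable def expMat {G : Type u} [Group G] {m n : ℕ}
    (w : Fin m → Coprod G (FreeGroup (Fin n))) : Matrix (Fin m) (Fin n) ℚ :=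
  fun i j => ((Multiplicative.toAdd (expHom G n (w i)) j : ℤ) : ℚ)

/-- every nonsingular finite system over `G` is solvable over `G` -/
def Howie (G : Type u) [Group G] : Prop :=
  ∀ (m n : ℕ) (w : Fin m → Coprod G (FreeGroup (Fin n))), (expMat w).rank = m →
    ∀ g : G, (Coprod.inl g : Coprod G (FreeGroup (Fin n))) ∈ Subgroup.normalClosure (Set.range w) →
      g = 1

theorem expHom_map {A B : Type u} [Group A] [Group B] (f : A →* B) (n : ℕ)
    (x : Coprod A (FreeGroup (Fin n))) :
    expHom B n (Coprod.map f (MonoidHom.id _) x) = expHom A n x := by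
  have h : (expHom B n).comp (Coprod.map f (MonoidHom.id _)) = expHom A n := by
    refine Coprod.hom_ext ?_ ?_
    · ext a; simp [expHom]
    · ext a; simp [expHom]
  exact DFunLike.congr_fun h x

theorem howie_local {G : Type u} [Group G]
    (h : ∀ g : G, g ≠ 1 → ∀ S : Finset G, ∃ (H : Type u) (_ : Group H) (φ : G → H),
      φ g ≠ 1 ∧ (∀ x ∈ S, ∀ y ∈ S, φ (x * y) = φ x * φ y) ∧ Howie H) :
    Howie G := by
  classical
  intro m n w hrank g hg
  by_contra hne
  choose H inst φ hne' hmul hHow using h g hne
  let F := FreeGroup (Fin n)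
  let π : Coprod (FreeGroup G) F →* Coprod G F :=
    Coprod.map (FreeGroup.lift (id : G → G)) (MonoidHom.id F)
  have hπ : Function.Surjective π := by
    intro x
    induction x using Coprod.induction_on with
    | inl a => exact ⟨Coprod.inl (FreeGroup.of a), by simp [π]⟩
    | inr a => exact ⟨Coprod.inr a, by simp [π]⟩
    | mul x y hx hy =>
      obtain ⟨x', rfl⟩ := hx
      obtain ⟨y', rfl⟩ := hy
      exact ⟨x' * y', map_mul _ _ _⟩
  choose w' hw' using fun i => hπ (w i)
  let ρ : ∀ S : Finset G, Coprod (FreeGroup G) F →* Coprod (H S) F := fun S =>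
    Coprod.map (FreeGroup.lift (φ S)) (MonoidHom.id F)
  let wS : ∀ S : Finset G, Fin m → Coprod (H S) F := fun S i => ρ S (w' i)
  have hrankS : ∀ S, (expMat (wS S)).rank = m := by
    intro S
    have e : expMat (wS S) = expMat w := by
      funext i j
      simp only [expMat, wS]
      rw [show expHom (H S) n (ρ S (w' i)) = expHom (FreeGroup G) n (w' i) from expHom_map _ _ _,
        ← hw' i, show expHom G n (π (w' i)) = expHom (FreeGroup G) n (w' i) from expHom_map _ _ _]
    rw [e, hrank]
  let K : Finset G → Type u := fun S => Coprod (H S) F ⧸ Subgroup.normalClosure (Set.range (wS S))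
  let N : Subgroup (∀ S, K S) :=
    { carrier := {f | ∀ᶠ S in Filter.atTop, f S = 1}
      mul_mem' := fun {a b} ha hb => by
        filter_upwards [ha, hb] with S h1 h2
        rw [Pi.mul_apply, h1, h2, mul_one]
      one_mem' := Filter.Eventually.of_forall fun S => rfl
      inv_mem' := fun {a} ha => by
        filter_upwards [ha] with S h1
        rw [Pi.inv_apply, h1, inv_one] }
  have hNn : N.Normal := ⟨fun a ha b => by
    change ∀ᶠ S in Filter.atTop, (b * a * b⁻¹) S = 1
    have ha' : ∀ᶠ S in Filter.atTop, a S = 1 := ha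
    filter_upwards [ha'] with S h1
    rw [Pi.mul_apply, Pi.mul_apply, Pi.inv_apply, h1, mul_one, mul_inv_cancel]⟩
  let q : ∀ S, Coprod (H S) F →* K S := fun S => QuotientGroup.mk' _
  let β : G →* (∀ S, K S) ⧸ N :=
    MonoidHom.mk' (fun g => QuotientGroup.mk (fun S => q S (Coprod.inl (φ S g)))) (by
      intro a b
      rw [← QuotientGroup.mk_mul, QuotientGroup.eq]
      change ∀ᶠ S in Filter.atTop, _ = 1
      filter_upwards [Filter.eventually_ge_atTop ({a, b} : Finset G)] with S hS
      have ha : a ∈ S := hS (by simp)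
      have hb : b ∈ S := hS (by simp)
      simp only [Pi.mul_apply, Pi.inv_apply]
      rw [hmul S a ha b hb, map_mul, map_mul, inv_mul_cancel])
  let γ : F →* (∀ S, K S) ⧸ N :=
    (QuotientGroup.mk' N).comp (MonoidHom.pi fun S => (q S).comp Coprod.inr)
  let θ : Coprod G F →* (∀ S, K S) ⧸ N := Coprod.lift β γ
  have hθ : θ.comp π = (QuotientGroup.mk' N).comp (MonoidHom.pi fun S => (q S).comp (ρ S)) := by
    refine Coprod.hom_ext ?_ ?_
    · refine FreeGroup.ext_hom _ _ fun a => ?_
      simp only [MonoidHom.comp_apply, π, Coprod.map_apply_inl, FreeGroup.lift_apply_of, id, θ,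
        Coprod.lift_apply_inl]
      change (QuotientGroup.mk _ : (∀ S, K S) ⧸ N) = QuotientGroup.mk _
      congr 1
      funext S
      change _ = q S (Coprod.map (FreeGroup.lift (φ S)) (MonoidHom.id F)
        (Coprod.inl (FreeGroup.of a)))
      rw [Coprod.map_apply_inl, FreeGroup.lift_apply_of]
    · refine FreeGroup.ext_hom _ _ fun a => ?_
      simp only [MonoidHom.comp_apply, π, Coprod.map_apply_inr, MonoidHom.id_apply, θ,
        Coprod.lift_apply_inr]
      change (QuotientGroup.mk _ : (∀ S, K S) ⧸ N) = QuotientGroup.mk _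
      congr 1
  have hker : Subgroup.normalClosure (Set.range w) ≤ θ.ker := by
    refine Subgroup.normalClosure_le_normal ?_
    rintro _ ⟨i, rfl⟩
    change θ (w i) = 1
    rw [← hw' i]
    have e := DFunLike.congr_fun hθ (w' i)
    rw [MonoidHom.comp_apply] at e
    rw [e]
    change (QuotientGroup.mk _ : (∀ S, K S) ⧸ N) = 1
    rw [QuotientGroup.eq_one_iff]
    refine Filter.Eventually.of_forall fun S => ?_
    change q S (ρ S (w' i)) = 1
    exact (QuotientGroup.eq_one_iff _).2 (Subgroup.subset_normalClosure ⟨i, rfl⟩)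
  have h1 : θ (Coprod.inl g) = 1 := hker hg
  rw [show θ (Coprod.inl g) = β g from Coprod.lift_apply_inl _ _ _] at h1
  have h2 : ∀ᶠ S in Filter.atTop, q S (Coprod.inl (φ S g)) = 1 :=
    (QuotientGroup.eq_one_iff _).1 h1
  obtain ⟨S, hS1⟩ := h2.exists
  exact hne' S (hHow S m n (wS S) (hrankS S) (φ S g) ((QuotientGroup.eq_one_iff _).1 hS1))

end P174
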